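import Vale.Agent.P202.Mixed.Extend.Bound
import Vale.Agent.P202.Mixed.Lattice.Eval

/-!
# P202 mixed characteristic, untilt block: the natural evaluation and the data of one untilt
-/

noncomputable section

namespace Vale.Agent.P202.Mixed.Untilt

open WittVector Extend

universe u

variable {p : ℕ} [Fact p.Prime] {k : Type u} [_root_.Field k] [CharP k p] [PerfectRing k p] {d : ℕ}

variable (p k d) in
/-- The natural evaluation `W(k)[[X]] → W(T0)`. -/
def theta : MvPowerSeries (Fin (d + 1)) (WittVector p k) →+* WittVector p (Field.T0 k d) :=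
  Lattice.evalT (algebraMap (Field.Ser k d) (Field.T0 k d))

variable {B : Type u} [CommRing B] [Algebra (MvPowerSeries (Fin (d + 1)) (WittVector p k)) B]

/-- One untilt at precision `n`: the extension of the evaluation to `B`, and representatives in
`T0` of the slack times chosen elements, those of `genM` with value at least `1 - 1 / Q`. -/
structure Step (n Q : ℕ) (t u : Field.T0 k d) {mB mM : ℕ} (genB : Fin mB → B)
    (genM : Fin mM → B) where
  S : Type u
  [ring : CommRing S]
  j : Field.T0 k d →+* S
  desc : ∀ x : WittVector p (Field.T0 k d), WittVector.map j x ∈ tiltI (j t) n → x ∈ tiltI t n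
  ρ : B →+* WittVector p S ⧸ tiltI (j t) n
  ρ_eq : ∀ π, ρ (algebraMap (MvPowerSeries (Fin (d + 1)) (WittVector p k)) B π) =
    Ideal.Quotient.mk _ (WittVector.map j (theta p k d π))
  wB : Fin mB → Field.T0 k d
  wB_eq : ∀ i, Ideal.Quotient.mk _ (WittVector.map j (WittVector.teichmuller p u)) * ρ (genB i) =
    Ideal.Quotient.mk _ (WittVector.map j (WittVector.teichmuller p (wB i)))
  wM : Fin mM → Field.T0 k d
  wM_eq : ∀ i, Ideal.Quotient.mk _ (WittVector.map j (WittVector.teichmuller p u)) * ρ (genM i) =
    Ideal.Quotient.mk _ (WittVector.map j (WittVector.teichmuller p (wM i)))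
  wM_deep : ∀ i (w : Field.OrdVal k d), (((Q - 1 : ℕ) : ℝ) : WithTop ℝ) ≤ Q • w.at (wM i)

attribute [instance] Step.ring

end Vale.Agent.P202.Mixed.Untilt
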