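import Vale.Agent.P202.Mixed.Untilt.Step
import Vale.Agent.P202.Mixed.Witt.Root

/-!
# P202 mixed characteristic, untilt block: facts on a model

The degree is positive, the algebra and its maximal ideal have finitely many generators, and the
evaluated equation is, at any precision, a unit times factors `p - [t]`.
-/

noncomputable section

namespace Vale.Agent.P202.Mixed.Untilt

open WittVector Extend IsLocalRing

universe u

variable {p : ℕ} [Fact p.Prime] {k : Type u} [_root_.Field k] [CharP k p] {d : ℕ}
variable {B : Type u} [CommRing B] [IsLocalRing B]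
  [Algebra (MvPowerSeries (Fin (d + 1)) (WittVector p k)) B] {D : ℕ}
  (Mo : Model p B (C := WittVector p k) (d := d) D)

omit [CharP k p] in
/-- The degree of a model is positive. -/
theorem model_D_pos (Mo : Model p B (C := WittVector p k) (d := d) D) : 0 < D := by
  by_contra h
  obtain ⟨c, hc⟩ := Mo.g_const
  obtain rfl : D = 0 := by omega
  rw [pow_zero, one_mul] at hc
  have hg : IsUnit Mo.g := MvPowerSeries.isUnit_iff_constantCoeff.2 (hc ▸ c.isUnit)
  have h0 : algebraMap (MvPowerSeries (Fin (d + 1)) (WittVector p k)) B Mo.g = 0 := by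
    rw [← RingHom.mem_ker, Mo.ker_eq]
    exact Ideal.mem_span_singleton_self _
  have := hg.map (algebraMap (MvPowerSeries (Fin (d + 1)) (WittVector p k)) B)
  rw [h0, isUnit_zero_iff] at this
  exact zero_ne_one this

omit [CharP k p] in
/-- Finitely many generators of the algebra and of its maximal ideal. -/
theorem exists_gens [IsNoetherianRing B] (Mo : Model p B (C := WittVector p k) (d := d) D) :
    ∃ (mB mM : ℕ) (genB : Fin mB → B) (genM : Fin mM → B),
      Submodule.span (MvPowerSeries (Fin (d + 1)) (WittVector p k)) (Set.range genB) = ⊤ ∧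
      Ideal.span (Set.range genM) = maximalIdeal B ∧ ∀ i, genM i ∈ maximalIdeal B := by
  have := Mo.finite
  obtain ⟨mB, genB, hB⟩ :=
    Module.Finite.exists_fin (R := MvPowerSeries (Fin (d + 1)) (WittVector p k)) (M := B)
  obtain ⟨mM, genM, hM⟩ := Submodule.fg_iff_exists_fin_generating_family.1
    (IsNoetherian.noetherian (maximalIdeal B))
  exact ⟨mB, mM, genB, genM, hB, hM, fun i => hM ▸ Submodule.subset_span (Set.mem_range_self i)⟩

variable [IsAlgClosed k] [PerfectRing k p]

/-- At every precision the evaluated equation is a truncated multiple of a product of `D` factors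
`p - [t]`, and it lies in the ideal of each of them. -/
theorem exists_factor (N : ℕ) :
    ∃ (t : ℕ → Field.T0 k d) (U : WittVector p (Field.T0 k d)),
      (∀ i, N ≤ i → U.coeff i = 0) ∧
      (∀ l, t l ≠ 0 ∧ ¬ IsUnit (t l) ∧ theta p k d Mo.g ∈ tiltI (t l) N) ∧
      (p : WittVector p (Field.T0 k d)) ^ N ∣ theta p k d Mo.g -
        U * ∏ l ∈ Finset.range D,
          ((p : WittVector p (Field.T0 k d)) - WittVector.teichmuller p (t l)) := by
  classical
  have : IsLocalRing (Field.T0 k d) := Field.isLocalRing_t0 k d
  have hD := model_D_pos Mo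
  set T := Field.T0 k d
  have : CharP (ResidueField T) p := by
    refine (CharP.charP_iff_prime_eq_zero (Fact.out : p.Prime)).2 ?_
    rw [← map_natCast (residue T), CharP.cast_eq_zero T p, map_zero]
  set f := theta p k d Mo.g
  set ρ := (WittVector.map (residue T) : WittVector p T →+* _).comp (theta p k d)
  -- the residues of the coefficients
  obtain ⟨c, hc⟩ := Mo.g_const
  have hρX : ∀ a, ρ (MvPowerSeries.X a) = 0 := fun a => by
    have hx : residue T (algebraMap (Field.Ser k d) T (MvPowerSeries.X a)) = 0 := by
      rw [residue_eq_zero_iff]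
      refine (mem_maximalIdeal _).2 fun hu => ?_
      obtain ⟨w⟩ := Field.ordVal_exists k d
      have h1 := w.eq_zero_of_isUnit hu
      rw [Field.OrdVal.at, Subalgebra.coe_algebraMap, value_X] at h1
      norm_num at h1
    show WittVector.map (residue T) ((evaluation p k d).φ (MvPowerSeries.X a)) = 0
    rw [(evaluation p k d).map_X, map_teichmuller, hx, teichmuller_zero]
  have hker : Ideal.span (Set.range (MvPowerSeries.X :
      Fin (d + 1) → MvPowerSeries (Fin (d + 1)) (WittVector p k))) ≤ RingHom.ker ρ :=
    Ideal.span_le.2 (by rintro _ ⟨a, rfl⟩; exact hρX a)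
  have hρg : ρ Mo.g = (ρ (MvPowerSeries.C (c : WittVector p k))) *
      (p : WittVector p (ResidueField T)) ^ D := by
    have h := hker (sub_C_constantCoeff_mem_span_X Mo.g)
    rw [RingHom.mem_ker, map_sub, sub_eq_zero] at h
    rw [h, hc, map_mul, map_mul, map_pow, map_pow, map_natCast, map_natCast, mul_comm]
  have hv : (ρ (MvPowerSeries.C (c : WittVector p k))).coeff 0 ≠ 0 :=
    (((c.isUnit.map MvPowerSeries.C).map ρ).map WittVector.constantCoeff).ne_zero
  have hres : ∀ i, residue T (f.coeff i) = (ρ Mo.g).coeff i := fun i => rfl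
  have hlow : ∀ i < D, f.coeff i ∈ maximalIdeal T := fun i hi => by
    rw [← residue_eq_zero_iff, hres, hρg, mul_pow_charP_coeff_zero _ hi]
  have htop : IsUnit (f.coeff D) := by
    refine notMem_maximalIdeal.1 fun h => hv ?_
    rw [← residue_eq_zero_iff, hres, hρg] at h
    have h2 := mul_pow_charP_coeff_succ (ρ (MvPowerSeries.C (c : WittVector p k))) (m := 0) (n := D)
    rw [zero_add, h] at h2
    exact eq_zero_of_pow_eq_zero h2.symm
  have h0 : f.coeff 0 ≠ 0 := by
    show ((evaluation p k d).φ Mo.g).coeff 0 ≠ 0
    rw [(evaluation p k d).coeff_zero]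
    exact fun h => gbar_ne_zero Mo (Field.algebraMap_t0_injective k d (h.trans (map_zero _).symm))
  obtain ⟨s, U, -, hs, hdvd⟩ := Witt.exists_factor hroot N f hlow htop fun _ => h0
  let t : ℕ → T := fun l => if h : l < D then s ⟨l, h⟩ else s ⟨0, hD⟩
  let U' : WittVector p T := WittVector.mk p fun i => if i < N then U.coeff i else 0
  have hU : (p : WittVector p T) ^ N ∣ U - U' := Witt.dvd_sub_of_trunc
    (Witt.trunc_eq_iff.2 fun i hi => by simp [U', WittVector.coeff_mk, hi])
  refine ⟨t, U', fun i hi => by simp [U', WittVector.coeff_mk, Nat.not_lt.2 hi], fun l => ?_, ?_⟩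
  · by_cases h : l < D
    · simp only [t, dif_pos h]
      exact ⟨(hs _).1, (mem_maximalIdeal _).1 (hs _).2, Witt.mem_tiltI_of_prod hdvd _⟩
    · simp only [t, dif_neg h]
      exact ⟨(hs _).1, (mem_maximalIdeal _).1 (hs _).2, Witt.mem_tiltI_of_prod hdvd _⟩
  · have hprod : ∏ l ∈ Finset.range D, ((p : WittVector p T) - WittVector.teichmuller p (t l)) =
        ∏ l : Fin D, ((p : WittVector p T) - WittVector.teichmuller p (s l)) := by
      rw [← Fin.prod_univ_eq_prod_range (fun l => (p : WittVector p T) - WittVector.teichmuller p (t l))]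
      exact Finset.prod_congr rfl fun l _ => by simp [t, l.2]
    rw [hprod]
    have := dvd_add hdvd (hU.mul_right (∏ l : Fin D, ((p : WittVector p T) - WittVector.teichmuller p (s l))))
    convert this using 1
    ring

end Vale.Agent.P202.Mixed.Untilt
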