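import Vale.Agent.P202.Mixed.Untilt.Defs
import Vale.Agent.P202.Mixed.Extend.Rho
import Vale.Agent.P202.Mixed.Extend.Natural
import Vale.Agent.P202.Mixed.Witt.Sharp
import Vale.Agent.P202.Mixed.Field.Level

/-!
# P202 mixed characteristic, untilt block: the data of one untilt exist

The pole is a sharp representative of the evaluation of the cokilling series.  The evaluation
extends to `B` with the pole allowed; a small slack brings chosen elements into `T0`, and elements
of the maximal ideal stay nearly as small as the variables.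
-/

noncomputable section

namespace Vale.Agent.P202.Mixed.Untilt

open WittVector Extend IsLocalRing

universe u

variable {p : ℕ} [Fact p.Prime] {k : Type u} [_root_.Field k] [CharP k p] {d : ℕ}

instance : PerfectRing (Field.Kbar k d) p := PerfectField.toPerfectRing p

/-- `T0` into the subring it is. -/
def toSub : Field.T0 k d →+* Field.t0Sub k d where
  toFun a := ⟨(a : Field.Kbar k d), a.2⟩
  map_one' := rfl
  map_zero' := rfl
  map_add' _ _ := rfl
  map_mul' _ _ := rfl

/-- The subring back into `T0`. -/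
def ofSub : Field.t0Sub k d →+* Field.T0 k d where
  toFun a := ⟨(a : Field.Kbar k d), a.2⟩
  map_one' := rfl
  map_zero' := rfl
  map_add' _ _ := rfl
  map_mul' _ _ := rfl

omit [CharP k p] in
theorem map_toSub_ofSub (x : WittVector p (Field.t0Sub k d)) :
    WittVector.map toSub (WittVector.map ofSub x) = x := by
  ext i
  rw [WittVector.map_coeff, WittVector.map_coeff]
  rfl

omit [CharP k p] in
theorem map_toVal_toSub (w : Field.OrdVal k d) (hV : Field.t0Sub k d ≤ (ordRingOf w).toSubring)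
    (x : WittVector p (Field.T0 k d)) :
    WittVector.map (toVal (ordRingOf w) hV) (WittVector.map toSub x) =
      WittVector.map (toV w) x := by
  ext i
  simp only [WittVector.map_coeff]
  rfl

theorem t0Sub_le_ordRingOf (w : Field.OrdVal k d) :
    Field.t0Sub k d ≤ (ordRingOf w).toSubring := fun a ha => w.nonneg ⟨a, ha⟩

theorem hroot (f : Polynomial (Field.T0 k d)) (hf : f.Monic) (hd : f.natDegree ≠ 0) :
    ∃ a, f.eval a = 0 := Field.exists_root k d f hf hd

theorem exists_nth_root {N : ℕ} (hN : 0 < N) (a : Field.T0 k d) : ∃ b : Field.T0 k d, b ^ N = a := by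
  obtain ⟨b, hb⟩ := hroot (Polynomial.X ^ N - Polynomial.C a)
    (Polynomial.monic_X_pow_sub_C a hN.ne') (by rw [Polynomial.natDegree_X_pow_sub_C]; omega)
  exact ⟨b, by simpa [sub_eq_zero] using hb⟩

variable [PerfectRing k p]

variable {B : Type u} [CommRing B] [IsLocalRing B]
  [Algebra (MvPowerSeries (Fin (d + 1)) (WittVector p k)) B] {D : ℕ}

omit [IsLocalRing B] [CharP k p] [PerfectRing k p] in
/-- The elements of a finite algebra satisfy monic equations of one positive degree. -/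
theorem exists_relation [Module.Finite (MvPowerSeries (Fin (d + 1)) (WittVector p k)) B] :
    ∃ m : ℕ, 0 < m ∧ ∀ r : B, ∃ c : Fin m → MvPowerSeries (Fin (d + 1)) (WittVector p k),
      r ^ m + ∑ i : Fin m, algebraMap (MvPowerSeries (Fin (d + 1)) (WittVector p k)) B (c i) *
        r ^ (i : ℕ) = 0 := by
  refine ⟨(⊤ : Submodule (MvPowerSeries (Fin (d + 1)) (WittVector p k)) B).spanFinrank + 1,
    Nat.succ_pos _, fun r => ?_⟩
  obtain ⟨q, hq, hdeg, hev⟩ := LinearMap.exists_monic_and_natDegree_eq_and_aeval_eq_zero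
    (MvPowerSeries (Fin (d + 1)) (WittVector p k))
    (Algebra.lmul (MvPowerSeries (Fin (d + 1)) (WittVector p k)) B r)
  set Q := q * Polynomial.X
  have hQ : Q.Monic := hq.mul Polynomial.monic_X
  have hQd : Q.natDegree =
      (⊤ : Submodule (MvPowerSeries (Fin (d + 1)) (WittVector p k)) B).spanFinrank + 1 := by
    rw [hq.natDegree_mul Polynomial.monic_X, hdeg, Polynomial.natDegree_X]
  have hQr : Polynomial.aeval r Q = 0 := by
    rw [Polynomial.aeval_algHom_apply] at hev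
    have h0 := LinearMap.congr_fun hev 1
    simp only [Algebra.coe_lmul_eq_mul, LinearMap.mul_apply', mul_one, LinearMap.zero_apply] at h0
    rw [map_mul, h0, zero_mul]
  refine ⟨fun i => Q.coeff i, ?_⟩
  rw [Polynomial.aeval_eq_sum_range, hQd, Finset.sum_range_succ, ← hQd, hQ.coeff_natDegree, one_smul,
    hQd, Finset.sum_range] at hQr
  rw [← hQr, add_comm]
  simp only [Algebra.smul_def]

section Pieces

variable (Mo : Model p B (C := WittVector p k) (d := d) D)

/-- The pole series. -/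
abbrev poleSeries : MvPowerSeries (Fin (d + 1)) (WittVector p k) :=
  (p : MvPowerSeries (Fin (d + 1)) (WittVector p k)) ^ Mo.b * Mo.G

/-- The evaluation into the Witt vectors of the subring. -/
abbrev phiSub : MvPowerSeries (Fin (d + 1)) (WittVector p k) →+* WittVector p (Field.t0Sub k d) :=
  (WittVector.map toSub).comp (evaluation p k d).φ

/-- The pole of an untilt. -/
def mkPole {N : ℕ} {t γ : Field.T0 k d} (ht0 : t ≠ 0) (hγ0 : γ ≠ 0)
    (hg : theta p k d Mo.g ∈ tiltI t N)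
    (hh : theta p k d (poleSeries Mo) - WittVector.teichmuller p (t ^ Mo.b * γ) ∈ tiltI t N) :
    Pole (Field.t0Sub k d) (phiSub (p := p) (k := k) (d := d)) (poleSeries Mo) Mo.b N B where
  t := toSub t
  γ := toSub γ
  roots := Field.t0Sub_roots p k d
  closed := Field.t0Sub_closed k d
  t_ne := fun h => ht0 (Subtype.ext h)
  γ_ne := fun h => hγ0 (Subtype.ext h)
  sharp w := by
    obtain ⟨v, hv⟩ := Witt.sharp hroot ht0 N (WittVector.map ofSub w)
    refine ⟨toSub v, ?_⟩
    have := map_mem_tiltI toSub hv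
    rwa [map_sub, map_teichmuller, map_toSub_ofSub] at this
  ker π hπ := by
    obtain ⟨q, rfl⟩ := Ideal.mem_span_singleton.1 (Mo.ker_eq.le (RingHom.mem_ker.2 hπ))
    rw [map_mul]
    exact Ideal.mul_mem_right _ _ (map_mem_tiltI toSub hg)
  h_eq := by
    have := map_mem_tiltI toSub hh
    rwa [map_sub, map_teichmuller, map_mul toSub, map_pow toSub] at this
  cokilled := Mo.cokilled

variable {h : MvPowerSeries (Fin (d + 1)) (WittVector p k)} {b N : ℕ}
  (P : Pole (Field.t0Sub k d) (phiSub (p := p) (k := k) (d := d)) h b N B)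

omit [IsLocalRing B] [CharP k p] [PerfectRing k p] in
/-- Products with the slack have Teichmüller representatives. -/
theorem exists_rep {n : ℕ} (hn : n ≤ N) (x : WittVector p P.R ⧸ P.J n) (a : Field.t0Sub k d)
    (hx : ∃ w : WittVector p (Field.t0Sub k d),
      Ideal.Quotient.mk (P.J n) (WittVector.teichmuller p
        (Subring.inclusion (le_awayIn _ P.γ) a)) * x =
      Ideal.Quotient.mk (P.J n) (wIncl (le_awayIn _ P.γ) w))
    (q : Field.t0Sub k d) : ∃ v : Field.t0Sub k d,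
    Ideal.Quotient.mk (P.J n) (WittVector.teichmuller p
        (Subring.inclusion (le_awayIn _ P.γ) (q * a))) * x =
      Ideal.Quotient.mk (P.J n) (WittVector.teichmuller p (Subring.inclusion (le_awayIn _ P.γ) v)) := by
  obtain ⟨w, hw⟩ := hx
  obtain ⟨v, hv⟩ := P.sharp (WittVector.teichmuller p q * w)
  refine ⟨v, ?_⟩
  have hv' := tiltI_anti _ hn
    (map_mem_tiltI (Subring.inclusion (le_awayIn (Field.t0Sub k d) P.γ)) hv)
  rw [map_sub, map_mul, map_teichmuller, map_teichmuller,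
    ← Ideal.Quotient.mk_eq_mk_iff_sub_mem] at hv'
  rw [← hv', map_mul (Subring.inclusion (le_awayIn (Field.t0Sub k d) P.γ)),
    map_mul (WittVector.teichmuller p), map_mul (Ideal.Quotient.mk (P.J n)),
    map_mul (Ideal.Quotient.mk (P.J n)), mul_assoc, hw]
  rfl

omit [IsLocalRing B] [PerfectRing k p] in
/-- A representative of an element of a small power of the ideal is small up to the pole. -/
theorem value_rep {n r₁ S : ℕ} (hn : n ≤ N) (hS : 0 < S)
    (hreg : ∀ a : Field.t0Sub k d, P.t ∣ P.γ * a → P.t ∣ a)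
    (ρ : B →+* WittVector p P.R ⧸ P.J n)
    (hρ : ∀ π, ρ (algebraMap (MvPowerSeries (Fin (d + 1)) (WittVector p k)) B π) =
      Ideal.Quotient.mk (P.J n) (P.φ' π))
    {u v : Field.t0Sub k d} {r : B}
    (hv : Ideal.Quotient.mk (P.J n) (WittVector.teichmuller p
        (Subring.inclusion (le_awayIn _ P.γ) u)) * ρ r =
      Ideal.Quotient.mk (P.J n) (WittVector.teichmuller p (Subring.inclusion (le_awayIn _ P.γ) v)))
    {π : MvPowerSeries (Fin (d + 1)) (WittVector p k)}
    (hπI : π ∈ Ideal.span (Set.range (MvPowerSeries.X :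
      Fin (d + 1) → MvPowerSeries (Fin (d + 1)) (WittVector p k))) ^ (S - r₁))
    (hπB : algebraMap (MvPowerSeries (Fin (d + 1)) (WittVector p k)) B π =
      algebraMap (MvPowerSeries (Fin (d + 1)) (WittVector p k)) B h * r ^ S)
    (w : Field.OrdVal k d) :
    (((S - r₁ : ℕ) : ℝ) : WithTop ℝ) ≤
        S • w.v (v : Field.Kbar k d) + w.v (P.q : Field.Kbar k d) ∨
      n • w.v (P.t : Field.Kbar k d) ≤
        S • w.v (v : Field.Kbar k d) + w.v (P.q : Field.Kbar k d) := by
  obtain ⟨g₀, hg₀⟩ := exists_nth_root hS (ofSub P.q)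
  have hg : toSub g₀ ^ S = P.q := by rw [← map_pow, hg₀]; rfl
  obtain ⟨z, hz⟩ := Ideal.mem_span_singleton.1
    (map_spanX_le (evaluation p k d) w (S - r₁) (Ideal.mem_map_of_mem _ hπI))
  have hu : (toSub g₀ * u) ^ S = P.q * u ^ S := by rw [mul_pow, hg]
  have hw : Ideal.Quotient.mk (P.J n) (WittVector.teichmuller p
      (Subring.inclusion (le_awayIn _ P.γ) (toSub g₀ * u))) * ρ r =
      Ideal.Quotient.mk (P.J n) (WittVector.teichmuller p
        (Subring.inclusion (le_awayIn _ P.γ) (toSub g₀ * v))) := by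
    rw [map_mul (Subring.inclusion (le_awayIn (Field.t0Sub k d) P.γ)),
      map_mul (Subring.inclusion (le_awayIn (Field.t0Sub k d) P.γ)),
      map_mul (WittVector.teichmuller p), map_mul (WittVector.teichmuller p),
      map_mul (Ideal.Quotient.mk (P.J n)), map_mul (Ideal.Quotient.mk (P.J n)), mul_assoc, hv]
  have hkey := P.valuation_rho_le hn hreg ρ hρ (r := r) (S := S) hu hw (π := π) hπB (ordRingOf w)
    (t0Sub_le_ordRingOf w) (c := x0 w ^ (S - r₁)) (z := z)
    ((map_toVal_toSub w _ ((evaluation p k d).φ π)).trans hz)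
  have hprod : w.v (((toSub g₀ * v : Field.t0Sub k d) : Field.Kbar k d) ^ S) =
      S • w.v (v : Field.Kbar k d) + w.v (P.q : Field.Kbar k d) := by
    rw [Subring.coe_mul, mul_pow, w.v.map_mul, ← Subring.coe_pow, hg, w.v.map_pow, add_comm]
  rw [← map_pow, ← map_pow (ordRingOf w).valuation (P.t : Field.Kbar k d)] at hkey
  rcases hkey with h | h
  · refine .inl ?_
    rw [← value_x0_pow w (S - r₁), ← hprod]
    exact le_of_valuation_le h
  · refine .inr ?_
    rw [← hprod, ← w.v.map_pow]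
    exact le_of_valuation_le h

/-- `T0` into the ring with the pole allowed. -/
def jHom : Field.T0 k d →+* P.R :=
  (Subring.inclusion (le_awayIn _ P.γ)).comp toSub

omit [IsLocalRing B] [CharP k p] [PerfectRing k p] in
theorem dvd_of_jHom_dvd (hreg : ∀ a : Field.t0Sub k d, P.t ∣ P.γ * a → P.t ∣ a)
    (a : Field.T0 k d) (h : jHom P (ofSub P.t) ∣ jHom P a) : ofSub P.t ∣ a := by
  obtain ⟨⟨e, i, he⟩, hae⟩ := h
  have hae' : (a : Field.Kbar k d) = (P.t : Field.Kbar k d) * e := congrArg Subtype.val hae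
  have hi : ∀ (i : ℕ) (a : Field.t0Sub k d), P.t ∣ P.γ ^ i * a → P.t ∣ a := by
    intro i
    induction i with
    | zero => intro a ha; rwa [pow_zero, one_mul] at ha
    | succ i ih => intro a ha; exact ih a (hreg _ (by rwa [← mul_assoc, ← pow_succ']))
  refine map_dvd ofSub (hi i (toSub a) ⟨⟨_, he⟩, Subtype.ext ?_⟩)
  change ((P.γ ^ i * toSub a : Field.t0Sub k d) : Field.Kbar k d) =
    (P.t : Field.Kbar k d) * ((P.γ : Field.Kbar k d) ^ i * e)
  rw [Subring.coe_mul, Subring.coe_pow]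
  change (P.γ : Field.Kbar k d) ^ i * (a : Field.Kbar k d) = _
  rw [hae']
  ring

omit [IsLocalRing B] [PerfectRing k p] in
/-- The data of one untilt from a pole, an extension and representatives. -/
theorem step_of_pole {n Q : ℕ} {mB mM : ℕ} {genB : Fin mB → B} {genM : Fin mM → B}
    (hreg : ∀ a : Field.t0Sub k d, P.t ∣ P.γ * a → P.t ∣ a)
    (ρ : B →+* WittVector p P.R ⧸ P.J n)
    (hρ : ∀ π, ρ (algebraMap (MvPowerSeries (Fin (d + 1)) (WittVector p k)) B π) =
      Ideal.Quotient.mk (P.J n) (P.φ' π))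
    (u : Field.T0 k d) (v : B → Field.t0Sub k d)
    (hv : ∀ r : B, Ideal.Quotient.mk (P.J n) (WittVector.teichmuller p
        (Subring.inclusion (le_awayIn _ P.γ) (toSub u))) * ρ r =
      Ideal.Quotient.mk (P.J n) (WittVector.teichmuller p
        (Subring.inclusion (le_awayIn _ P.γ) (v r))))
    (hdeep : ∀ i (w : Field.OrdVal k d),
      (((Q - 1 : ℕ) : ℝ) : WithTop ℝ) ≤ Q • w.v (v (genM i) : Field.Kbar k d)) :
    Nonempty (Step (p := p) n Q (ofSub P.t) u genB genM) := by
  have : PerfectRing P.R p := P.perfR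
  have hinj : Function.Injective (jHom P) := fun _ _ h =>
    Subtype.ext (congrArg (fun z : P.R => (z : Field.Kbar k d)) h)
  have hj : ∀ a : Field.T0 k d, WittVector.map (jHom P) (WittVector.teichmuller p a) =
      WittVector.teichmuller p (Subring.inclusion (le_awayIn _ P.γ) (toSub a)) := fun a =>
    map_teichmuller p _ a
  have hmap : ∀ x : WittVector p (Field.T0 k d), WittVector.map (jHom P) x =
      wIncl (le_awayIn _ P.γ) (WittVector.map toSub x) := fun x => by
    ext i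
    simp only [wIncl, WittVector.map_coeff]
    rfl
  exact ⟨{
    S := P.R
    j := jHom P
    desc := fun x hx => of_map_mem_tiltI (jHom P) hinj
      (fun h => P.t_ne (congrArg Subtype.val h)) (dvd_of_jHom_dvd P hreg) n hx
    ρ := ρ
    ρ_eq := fun π => (hρ π).trans (congrArg _ (hmap _).symm)
    wB := fun i => ofSub (v (genB i))
    wB_eq := fun i => by rw [hj, hj]; exact hv (genB i)
    wM := fun i => ofSub (v (genM i))
    wM_eq := fun i => by rw [hj, hj]; exact hv (genM i)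
    wM_deep := fun i w => hdeep i w }⟩

end Pieces

omit [Fact p.Prime] [CharP k p] [PerfectRing k p] in
/-- The value of the slack. -/
theorem value_slack {n f J : ℕ} {t γ g s₀ : Field.T0 k d} (hgf : g ^ p ^ f = γ)
    (hs₀ : s₀ ^ p ^ f = t * γ) (w : Field.OrdVal k d)
    (htJ : w.at t ≤ ((J : ℝ) : WithTop ℝ)) (hγJ : w.at γ ≤ ((J : ℝ) : WithTop ℝ)) :
    p ^ f • w.at (g ^ n * s₀) ≤ ((((n + 2) * J : ℕ) : ℝ) : WithTop ℝ) := by
  have e : (g ^ n * s₀) ^ p ^ f = γ ^ n * (t * γ) := by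
    rw [mul_pow, ← pow_mul, mul_comm n, pow_mul, hgf, hs₀]
  have hpow' : p ^ f • w.at (g ^ n * s₀) = n • w.at γ + (w.at t + w.at γ) := by
    have h := congrArg (fun a : Field.T0 k d => w.v (a : Field.Kbar k d)) e
    simpa only [Field.OrdVal.at, Subalgebra.coe_mul, Subalgebra.coe_pow, w.v.map_mul,
      w.v.map_pow] using h
  rw [hpow']
  refine le_trans (add_le_add (nsmul_le_nsmul_right hγJ n) (add_le_add htJ hγJ)) (le_of_eq ?_)
  rw [← WithTop.coe_nsmul, ← WithTop.coe_add, ← WithTop.coe_add, WithTop.coe_eq_coe, nsmul_eq_mul]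
  push_cast
  ring

/-- Arithmetic of the depth. -/
theorem depth_arith {Q M r : ℕ} (hQ : 0 < Q) (hM : 0 < M) {c a : ℝ} (hr : (r : ℝ) + c ≤ M)
    (h : ((Q * M - r : ℕ) : ℝ) ≤ ((Q * M : ℕ) : ℝ) * a + c) : ((Q - 1 : ℕ) : ℝ) ≤ Q * a := by
  have h1 : ((Q * M : ℕ) : ℝ) ≤ ((Q * M - r : ℕ) : ℝ) + r := by
    exact_mod_cast (show Q * M ≤ Q * M - r + r by omega)
  have hM0 : (0 : ℝ) < M := by exact_mod_cast hM
  rw [Nat.cast_sub hQ, Nat.cast_one]
  push_cast at h h1
  nlinarith

/-- One untilt: the extension to `B`, the slack, and the depth of the maximal ideal. -/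
theorem exists_step (Mo : Model p B (C := WittVector p k) (d := d) D) {mB mM : ℕ}
    (genB : Fin mB → B) (genM : Fin mM → B) (hgenM : ∀ i, genM i ∈ maximalIdeal B) :
    ∃ J : ℕ, ∀ Q : ℕ, 0 < Q → ∃ n₀ : ℕ, ∀ n, n₀ ≤ n → ∀ f : ℕ, ∃ N₀ : ℕ, ∀ N, N₀ ≤ N →
      ∀ t : Field.T0 k d, ¬ IsUnit t → theta p k d Mo.g ∈ tiltI t N →
      (∀ w : Field.OrdVal k d, (((Q - 1 : ℕ) : ℝ) : WithTop ℝ) ≤ Q • w.at t) ∧
      ∃ s : Field.T0 k d, s ≠ 0 ∧
        (∀ w : Field.OrdVal k d, p ^ f • w.at s ≤ ((((n + 2) * J : ℕ) : ℝ) : WithTop ℝ)) ∧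
        ∀ u, s ∣ u → Nonempty (Step (p := p) n Q t u genB genM) := by
  have : Module.Finite (MvPowerSeries (Fin (d + 1)) (WittVector p k)) B := Mo.finite
  obtain ⟨J, N₁, hbound⟩ := exists_bound (evaluation p k d) Mo
  obtain ⟨r₀, J', hdeep⟩ := exists_deep (evaluation p k d) Mo
  obtain ⟨r₁, hpow⟩ := exists_power_mem Mo
  obtain ⟨m, hm, hrel⟩ := exists_relation (p := p) (k := k) (d := d) (B := B)
  refine ⟨J, fun Q hQ => ?_⟩
  obtain ⟨M, hM⟩ : ∃ M, M = r₀ + J' + r₁ + J + 1 := ⟨_, rfl⟩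
  have hS : 0 < Q * M := Nat.mul_pos hQ (by omega)
  obtain ⟨N₂, hN₂⟩ := hdeep (Q * M)
  refine ⟨D * (Q * M) + 1, fun n hn f =>
    ⟨N₁ + N₂ + m * (Mo.b + n * p ^ f) + n + 2 * Mo.b + 1, fun N hN t ht hg => ?_⟩⟩
  have ht0 : t ≠ 0 := t_ne_zero (evaluation p k d) Mo (by omega) hg
  obtain ⟨γ, hγ⟩ := Witt.sharp hroot ht0 N (theta p k d Mo.G)
  have hh : theta p k d (poleSeries Mo) - WittVector.teichmuller p (t ^ Mo.b * γ) ∈ tiltI t N := by
    have h1 := Ideal.mul_mem_left _ ((p : WittVector p (Field.T0 k d)) ^ Mo.b) hγ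
    have h2 := Ideal.mul_mem_right (WittVector.teichmuller p γ) _
      (p_pow_sub_mem (p := p) t N Mo.b)
    simp only [map_mul, map_pow, map_natCast]
    convert Ideal.add_mem _ h1 h2 using 1
    rw [map_pow]
    ring
  obtain ⟨-, hγ0, hreg, hval⟩ := hbound N (by omega) t γ ht hg hh
  refine ⟨fun w => ?_, ?_⟩
  · have h := hN₂ N (by omega) t γ ht hg hh w
    obtain ⟨c, hc0, hc⟩ := exists_real w ht0
    rw [Field.OrdVal.at, hc, ← WithTop.coe_nsmul, ← WithTop.coe_add, WithTop.coe_le_coe,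
      nsmul_eq_mul] at h
    rw [Field.OrdVal.at, hc, ← WithTop.coe_nsmul, WithTop.coe_le_coe, nsmul_eq_mul]
    exact depth_arith hQ (by omega) (by exact_mod_cast (show r₀ + J' ≤ M by omega)) h
  have hpf : 0 < p ^ f := pow_pos (Fact.out : p.Prime).pos _
  obtain ⟨g, hgf⟩ := exists_nth_root hpf γ
  obtain ⟨s₀, hs₀⟩ := exists_nth_root hpf (t * γ)
  have hsne : g ^ n * s₀ ≠ 0 := mul_ne_zero
    (pow_ne_zero n fun h => hγ0 (by rw [← hgf, h, zero_pow hpf.ne']))
    fun h => mul_ne_zero ht0 hγ0 (by rw [← hs₀, h, zero_pow hpf.ne'])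
  refine ⟨g ^ n * s₀, hsne, fun w => ?_, ?_⟩
  · obtain ⟨-, -, htJ, hqJ⟩ := hval w
    refine value_slack hgf hs₀ w htJ (le_trans ?_ hqJ)
    rw [Field.OrdVal.at, Field.OrdVal.at, Subalgebra.coe_mul, w.v.map_mul]
    exact le_add_of_nonneg_left (w.nonneg _)
  obtain ⟨P, hPt, hPγ⟩ : ∃ P : Pole (Field.t0Sub k d) (phiSub (p := p) (k := k) (d := d))
      (poleSeries Mo) Mo.b N B, P.t = toSub t ∧ P.γ = toSub γ :=
    ⟨mkPole Mo ht0 hγ0 hg hh, rfl, rfl⟩
  have hPq : (P.q : Field.Kbar k d) = ((t ^ Mo.b * γ : Field.T0 k d) : Field.Kbar k d) := by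
    rw [Pole.q, hPt, hPγ, ← map_pow, ← map_mul]
    rfl
  have hPt' : (P.t : Field.Kbar k d) = (t : Field.Kbar k d) := by rw [hPt]; rfl
  have htt : ofSub P.t = t := by rw [hPt]; rfl
  have hregT : ∀ a : Field.t0Sub k d, P.t ∣ P.γ * a → P.t ∣ a := fun a ha => by
    rw [hPt, hPγ] at ha
    rw [hPt]
    have h1 := map_dvd ofSub ha
    rw [map_mul] at h1
    exact map_dvd toSub (hreg (ofSub a) h1)
  have hgK : (toSub g : Field.Kbar k d) ^ p ^ f = (P.γ : Field.Kbar k d) := by
    rw [hPγ]; exact congrArg Subtype.val hgf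
  have hsK : (toSub s₀ : Field.Kbar k d) ^ p ^ f = (P.t : Field.Kbar k d) * P.γ := by
    rw [hPt, hPγ]; exact congrArg Subtype.val hs₀
  obtain ⟨ρ, hρ, hρw⟩ := P.exists_rho (n := n) (m := m) (l := n * p ^ f)
    hm (Nat.mul_pos (by omega) hpf) (by omega) (by omega) hrel
  rintro u ⟨q, rfl⟩
  have hrep := fun r : B => exists_rep P (by omega : n ≤ N) (ρ r)
    (toSub g ^ n * toSub s₀) (hρw f (toSub g) (toSub s₀) le_rfl hgK hsK r) (toSub q)
  choose v hv using hrep
  have heq : toSub (g ^ n * s₀ * q) = toSub q * (toSub g ^ n * toSub s₀) := by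
    rw [map_mul, map_mul, map_pow, mul_comm]
  refine htt ▸ step_of_pole P hregT ρ hρ _ v (fun r => by rw [heq]; exact hv r) fun i w => ?_
  obtain ⟨π, hπI, hπB⟩ := hpow (Q * M) (genM i) (hgenM i)
  have hkey := value_rep P (r₁ := r₁) (by omega : n ≤ N) hS hregT ρ hρ
    (hv (genM i)) hπI hπB w
  rw [hPq, hPt'] at hkey
  show _ ≤ Q • w.at (ofSub (v (genM i)))
  by_cases hv0 : ofSub (v (genM i)) = 0
  · rw [hv0, Field.OrdVal.at, ZeroMemClass.coe_zero, w.v.map_zero]
    obtain ⟨Q', rfl⟩ : ∃ Q', Q = Q' + 1 := ⟨Q - 1, by omega⟩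
    rw [succ_nsmul, WithTop.add_top]
    exact le_top
  obtain ⟨a, ha0, ha⟩ := exists_real w hv0
  obtain ⟨e, he0, he⟩ := exists_real w (mul_ne_zero (pow_ne_zero Mo.b ht0) hγ0)
  obtain ⟨c, hc0, hc⟩ := exists_real w ht0
  obtain ⟨-, hD, -, hqJ⟩ := hval w
  rw [show (v (genM i) : Field.Kbar k d) = (ofSub (v (genM i)) : Field.Kbar k d) from rfl] at hkey
  simp only [Field.OrdVal.at, ha, he, hc, ← WithTop.coe_nsmul, ← WithTop.coe_add,
    WithTop.coe_le_coe, nsmul_eq_mul] at hkey hqJ hD ⊢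
  refine depth_arith (M := M) (r := r₁) (c := (J : ℝ)) hQ (by omega)
    (by exact_mod_cast (show r₁ + J ≤ M by omega)) ?_
  rcases hkey with h | h
  · linarith
  · have hnr : (D : ℝ) * ((Q * M : ℕ) : ℝ) + 1 ≤ n := by exact_mod_cast hn
    have hsub : ((Q * M - r₁ : ℕ) : ℝ) ≤ ((Q * M : ℕ) : ℝ) := by exact_mod_cast Nat.sub_le _ _
    nlinarith [mul_le_mul_of_nonneg_right hnr hc0,
      mul_le_mul_of_nonneg_left hD (Nat.cast_nonneg (Q * M) : (0 : ℝ) ≤ ((Q * M : ℕ) : ℝ))]

end Vale.Agent.P202.Mixed.Untilt
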