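import Vale.Agent.P202.Mixed.Interface
import Vale.Agent.P202.Mixed.Untilt.Step
import Vale.Agent.P202.Mixed.Untilt.Facts
import Vale.Agent.P202.Mixed.Lattice.OfSteps
import Vale.Agent.P202.Mixed.Lattice.Level
import Vale.Agent.P202.Mixed.Assemble.Chain

/-!
# P202 mixed characteristic, untilt block: the chains of a model

The parameters are chosen in this order: the precision `n`, the root `p ^ f` of the slack, the
precision `N` of the untilts, a level containing powers of the finitely many elements, and the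
scale `e`.  As the error is linear in the rank of the level, it is negligible for large `f` and `e`.
-/

noncomputable section

namespace Vale.Agent.P202.Mixed.Untilt

open IsLocalRing WittVector Extend

universe u

variable {p : ℕ} [Fact p.Prime] {k : Type u} [_root_.Field k] {d : ℕ}

omit [Fact p.Prime] in
/-- Values of products. -/
theorem nsmul_at_prod_le (w : Field.OrdVal k d) (q X : ℕ) (s : ℕ → Field.T0 k d) : ∀ m : ℕ,
    (∀ l < m, q • w.at (s l) ≤ ((X : ℝ) : WithTop ℝ)) →
    q • w.at (∏ l ∈ Finset.range m, s l) ≤ (((m * X : ℕ) : ℝ) : WithTop ℝ)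
  | 0, _ => by simp [Field.OrdVal.at, w.v.map_one]
  | m + 1, h => by
    have h1 := nsmul_at_prod_le w q X s m fun l hl => h l (Nat.lt_succ_of_lt hl)
    rw [Field.OrdVal.at] at h1
    rw [Finset.prod_range_succ, Field.OrdVal.at, MulMemClass.coe_mul, w.v.map_mul, nsmul_add]
    refine (add_le_add h1 (h m (Nat.lt_succ_self m))).trans (le_of_eq ?_)
    rw [← WithTop.coe_add, Nat.succ_mul, Nat.cast_add]

/-- The error against the rank. -/
theorem error_le {p f e c n r R Q n₀ C A oc X v d : ℕ} (hp : 1 < p) (hQ : p ^ c = Q)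
    (hR : p ^ (e + n) = R * Q) (hfe : f ≤ e) (hf : 2 * (n₀ * C * n * (2 * v) ^ d * Q * X) ≤ p ^ f)
    (he : 2 * (n₀ * C * n * (2 * v) ^ d * Q * (A * oc)) ≤ p ^ e) :
    n₀ * (C * (r * (n * (p ^ n * (A * oc + p ^ (e - f) * X) * (2 * R * v) ^ d)))) ≤
      r * R ^ (d + 1) := by
  have hQ0 : 0 < Q := hQ ▸ pow_pos (by omega) c
  set Y := n₀ * C * n * (2 * v) ^ d * Q
  have h1 : Y * (p ^ (e - f) * X) * 2 ≤ p ^ e := by
    calc Y * (p ^ (e - f) * X) * 2 = p ^ (e - f) * (2 * (Y * X)) := by ring
      _ ≤ p ^ (e - f) * p ^ f := Nat.mul_le_mul_left _ hf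
      _ = p ^ e := by rw [← pow_add, Nat.sub_add_cancel hfe]
  have h2 : Y * (A * oc + p ^ (e - f) * X) ≤ p ^ e := by
    rw [Nat.mul_add]; omega
  refine Nat.le_of_mul_le_mul_right ?_ hQ0
  calc n₀ * (C * (r * (n * (p ^ n * (A * oc + p ^ (e - f) * X) * (2 * R * v) ^ d)))) * Q
      = r * R ^ d * p ^ n * (Y * (A * oc + p ^ (e - f) * X)) := by
        simp only [Y, mul_pow]; ring
    _ ≤ r * R ^ d * p ^ n * p ^ e := Nat.mul_le_mul_left _ h2
    _ = r * R ^ d * (R * Q) := by rw [← hR, pow_add]; ring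
    _ = r * R ^ (d + 1) * Q := by ring

/-- **Chains exist at every weight.** -/
theorem chainStatement : ChainStatement.{u} := by
  intro p _ L _ _ _ d _ B _ _ _ _ D Mo c K hK hKc v n₀
  classical
  have hp : 1 < p := (Fact.out : p.Prime).one_lt
  have hD : 0 < D := model_D_pos Mo
  obtain ⟨mB, mM, genB, genM, hgenB, hgenM, hgenMm⟩ := exists_gens Mo
  obtain ⟨J, hstep⟩ := exists_step Mo genB genM hgenMm
  set Q := p ^ c
  obtain ⟨n₁, hn₁⟩ := hstep Q (pow_pos (by omega) c)
  set n := n₁ + v + 1 with hn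
  set C := Assemble.Data.errC v D mB
  set X := D * ((n + 2) * J)
  set f := 2 * (n₀ * C * n * (2 * v) ^ d * Q * X)
  obtain ⟨N₁, hN₁⟩ := hn₁ n (by omega) f
  set N := N₁ + n
  obtain ⟨t, U, hUN, ht, hprod⟩ := exists_factor Mo N
  have hN₂ := fun l => hN₁ N (by omega) (t l) (ht l).2.1 (ht l).2.2
  have hdeep := fun l => (hN₂ l).1
  choose s hs0 hs hSt using fun l => (hN₂ l).2
  let u : Field.T0 L d := ∏ l ∈ Finset.range D, s l
  let σ : ℕ → ℕ := fun l => min l (D - 1)
  have hσ : ∀ l, σ l ∈ Finset.range D := fun l => Finset.mem_range.2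
    ((min_le_right _ _).trans_lt (by omega))
  let St := fun l => Classical.choice (hSt (σ l) u (Finset.dvd_prod_of_mem s (hσ l)))
  let St' : ∀ l : Fin D, Step (p := p) n Q (t (σ l)) u genB genM := fun l => St l
  let S : Finset (Field.T0 L d) := insert u ((Finset.range D).image t ∪
    (Finset.univ.image fun x : Fin D × Fin mB => (St' x.1).wB x.2) ∪
    (Finset.univ.image fun x : Fin D × Fin mM => (St' x.1).wM x.2) ∪
    (Finset.range N).image U.coeff)
  obtain ⟨Lv, fL, hLv⟩ := Field.levelStatement p L d S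
  set A := (n + 1) * n + n * (D + 3)
  set oc := Field.ord L d Lv.c
  set e := f + fL + c + 2 * (n₀ * C * n * (2 * v) ^ d * Q * (A * oc))
  set R := p ^ (e + n - c)
  have hR : p ^ (e + n) = R * Q := by
    rw [← pow_add, Nat.sub_add_cancel (show c ≤ e + n by omega)]
  have hpow : ∀ a ∈ S, a ^ p ^ e ∈ Lv.carrier := fun a ha => by
    rw [← Nat.add_sub_cancel' (show fL ≤ e by omega), pow_add, pow_mul]
    exact pow_mem (hLv a ha) _
  -- the untilts, clipped at `D`
  let l' : ℕ → Fin D := fun l => ⟨σ l, Finset.mem_range.1 (hσ l)⟩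
  have hσσ : ∀ l, σ (σ l) = σ l := fun l => min_eq_left (min_le_right _ _)
  let T' : ℕ → Field.T0 L d := fun l => t (σ (l' l))
  let Us := Lattice.untiltsOfSteps (B := B) (K := K) Lv hR (by omega : K + d + 3 ≤ Q) T'
    (fun l => St' (l' l)) (fun l => (ht _).1)
    (fun l => hpow _ (by
      simp only [S, T', Finset.mem_insert, Finset.mem_union, Finset.mem_image]
      exact .inr (.inl (.inl (.inl ⟨_, hσ _, rfl⟩)))))
    (fun l => hdeep _)
    (fun l i => hpow _ (by
      simp only [S, Finset.mem_insert, Finset.mem_union, Finset.mem_image]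
      exact .inr (.inl (.inl (.inr ⟨(l' l, i), Finset.mem_univ _, rfl⟩)))))
    (fun l i => hpow _ (by
      simp only [S, Finset.mem_insert, Finset.mem_union, Finset.mem_image]
      exact .inr (.inl (.inr ⟨(l' l, i), Finset.mem_univ _, rfl⟩))))
  have hU₀ : U ∈ (Lattice.frameOfLevel p L Lv e n).levW 0 := by
    refine (Lattice.frameOfLevel p L Lv e n).mem_levW.2 fun i => ?_
    refine (Lattice.mem_frameOfLevel_C_zero Lv e n).2 ?_
    rcases lt_or_ge i N with hi | hi
    · refine hpow _ ?_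
      simp only [S, Finset.mem_insert, Finset.mem_union, Finset.mem_image, Finset.mem_range]
      exact .inr (.inr ⟨i, hi, rfl⟩)
    · rw [hUN i hi, zero_pow (pow_pos (by omega) e).ne']
      exact zero_mem _
  have hg : (p : WittVector p (Field.T0 L d)) ^ n ∣
      Lattice.evalT (algebraMap (Field.Ser L d) (Field.T0 L d)) Mo.g - U * ∏ l ∈ Finset.range D,
        ((p : WittVector p (Field.T0 L d)) - WittVector.teichmuller p (Us.t l)) := by
    refine (pow_dvd_pow _ (show n ≤ N by omega)).trans ?_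
    refine (dvd_of_eq rfl).trans (hprod.trans (dvd_of_eq ?_))
    refine congrArg (fun P => theta p L d Mo.g - U * P) (Finset.prod_congr rfl fun l hl => ?_)
    show _ = (p : WittVector p (Field.T0 L d)) - WittVector.teichmuller p (t (σ (σ l)))
    rw [hσσ, show σ l = l from min_eq_left (by have := Finset.mem_range.1 hl; omega)]
  have hu : u ^ p ^ e ∈ Lv.carrier := hpow _ (Finset.mem_insert_self _ _)
  have hμ : ∀ w : Field.OrdVal L d,
      w.at (u ^ p ^ e) ≤ (((p ^ (e - f) * X : ℕ) : ℝ) : WithTop ℝ) := fun w => by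
    have h1 := nsmul_le_nsmul_right
      (nsmul_at_prod_le w (p ^ f) ((n + 2) * J) s D fun l _ => hs l w) (p ^ (e - f))
    rw [← mul_nsmul', ← pow_add, Nat.sub_add_cancel (show f ≤ e by omega)] at h1
    rw [Field.OrdVal.at, SubmonoidClass.coe_pow, w.v.map_pow]
    refine h1.trans (le_of_eq ?_)
    rw [← WithTop.coe_nsmul, nsmul_eq_mul, ← Nat.cast_mul]
  obtain ⟨T⟩ := Lattice.exists_data_level Lv e n (by omega) Us (Q := Q) (v := v) (D := D)
    (Nat.one_le_pow _ _ (by omega)) hK hR
    ((show v ≤ n by omega).trans (Nat.le_mul_of_pos_right n hK)) Mo hgenB hgenM hU₀ hg hu hμ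
  refine ⟨Lv.r * R ^ (d + 1), _, Nat.mul_pos Lv.r_pos (pow_pos (pow_pos (by omega) _) _), ?_,
    T.nonempty_chain hK⟩
  exact error_le hp rfl hR (by omega) (Nat.lt_pow_self hp).le
    ((Nat.le_add_left _ _).trans (Nat.lt_pow_self hp).le)

end Vale.Agent.P202.Mixed.Untilt
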